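import Vale.Agent.P047.Final

namespace Vale.Agent.Results.P047.Disproof

open Finset

/-- A point of `{-1,1}^n` is coded by `x : Fin n → Bool`; `sgn (x i)` is its `i`-th coordinate. -/
def sgn (b : Bool) : ℝ := if b then 1 else -1

/-- The Fourier coefficient `E[f(X) ∏_{i ∈ S} X_i]` for `X` uniform on the cube. -/
noncomputable def coeff {n : ℕ} (f : (Fin n → Bool) → ℝ) (S : Finset (Fin n)) : ℝ :=
  (∑ x : Fin n → Bool, f x * ∏ i ∈ S, sgn (x i)) / 2 ^ n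

open Classical in
/-- The degree: the largest size of a set with nonzero Fourier coefficient. -/
noncomputable def deg {n : ℕ} (f : (Fin n → Bool) → ℝ) : ℕ :=
  (univ.filter fun S : Finset (Fin n) => coeff f S ≠ 0).sup Finset.card

/-- `f` takes values in `{-1,1}`. -/
def IsBoolean {n : ℕ} (f : (Fin n → Bool) → ℝ) : Prop := ∀ x, f x = 1 ∨ f x = -1

theorem result :
    (∃ ε : ℝ, 0 < ε ∧ ∃ c : ℝ, 0 < c ∧ ∀ d : ℕ, 1 ≤ d →
      ∃ n : ℕ, 1 ≤ n ∧ ∃ f : (Fin n → Bool) → ℝ, IsBoolean f ∧ deg f ≤ d ∧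
        c * (d : ℝ) ^ (1 / 2 + ε) ≤ ∑ i, coeff f {i}) ∧
    (¬ ∃ C : ℝ, ∀ n : ℕ, 1 ≤ n → ∀ f : (Fin n → Bool) → ℝ, IsBoolean f →
      ∑ i, coeff f {i} ≤ C * √(deg f : ℝ)) := by
  have key : ∃ ε : ℝ, 0 < ε ∧ ∃ c : ℝ, 0 < c ∧ ∀ d : ℕ, 1 ≤ d →
      ∃ n : ℕ, 1 ≤ n ∧ ∃ f : (Fin n → Bool) → ℝ, IsBoolean f ∧ deg f ≤ d ∧
        c * (d : ℝ) ^ (1 / 2 + ε) ≤ ∑ i, coeff f {i} := by
    obtain ⟨ε, hε, c, hc, h⟩ := Vale.Agent.P047.main
    refine ⟨ε, hε, c, hc, fun d hd => ?_⟩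
    obtain ⟨n, hn, σ, h1, h2⟩ := h d hd
    refine ⟨n, hn, fun x => sgn (σ x), fun x => by beta_reduce; cases σ x <;> simp [sgn], ?_, ?_⟩
    · refine Finset.sup_le fun S hS => ?_
      by_contra hlt
      have := Vale.Agent.P047.low_fourier h1 S (not_le.1 hlt)
      apply (mem_filter.1 hS).2
      unfold coeff
      rw [div_eq_zero_iff]
      exact Or.inl this
    · refine h2.trans (le_of_eq ?_)
      unfold coeff Vale.Agent.P047.Ex
      rw [← sum_div, sum_comm, sum_div]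
      refine sum_congr rfl fun x _ => ?_
      simp only [prod_singleton, ← mul_sum, Vale.Agent.P047.pw, Vale.Agent.P047.half,
        prod_const, card_univ, Fintype.card_fin]
      rw [one_div, inv_pow, inv_mul_eq_div]
      rfl
  refine ⟨key, ?_⟩
  rintro ⟨C, hC⟩
  obtain ⟨ε, hε, c, hc, h⟩ := key
  have ht : Filter.Tendsto (fun d : ℕ => c * (d : ℝ) ^ ε) Filter.atTop Filter.atTop :=
    ((tendsto_rpow_atTop hε).comp tendsto_natCast_atTop_atTop).const_mul_atTop hc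
  obtain ⟨d, hd1, hd2⟩ := ((ht.eventually_gt_atTop |C|).and (Filter.eventually_ge_atTop 1)).exists
  obtain ⟨n, hn, f, hf, hdeg, hle⟩ := h d hd2
  have hdR : (0 : ℝ) < d := by exact_mod_cast hd2
  have a1 := hC n hn f hf
  have a2 : √(deg f : ℝ) ≤ √(d : ℝ) := Real.sqrt_le_sqrt (by exact_mod_cast hdeg)
  have a3 : C * √(deg f : ℝ) ≤ |C| * √(d : ℝ) :=
    mul_le_mul (le_abs_self C) a2 (Real.sqrt_nonneg _) (abs_nonneg C)
  rw [Real.rpow_add hdR, ← Real.sqrt_eq_rpow] at hle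
  have a4 : 0 < √(d : ℝ) := Real.sqrt_pos.2 hdR
  nlinarith

end Vale.Agent.Results.P047.Disproof
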